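import Vale.Agent.P272.GJ.Mfd
import Vale.Agent.P272.K.N.Compare
import Vale.Agent.P272.K.Asm.Twisted
import Mathlib.LinearAlgebra.Matrix.SchurComplement

/-!
# N272X: the potential `-log (1 - Q(v))` of a Hermitian ellipsoid
-/

open scoped Manifold ContDiff ComplexOrder Topology Matrix
open Set Filter

set_option linter.all false

noncomputable section

namespace Vale.Agent.N272X

open Vale.Agent.P272 Vale.Agent.P272.K

variable {n : ℕ} {Q : Matrix (Fin n) (Fin n) ℂ} {z : Cm n} {j k : Fin n}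

lemma fderiv_chain {q : Cm n → ℝ} {φ : ℝ → ℝ} {c : ℝ} (hq : DifferentiableAt ℝ q z)
    (hφ : HasDerivAt φ c (q z)) (v : Cm n) :
    fderiv ℝ (fun y => (φ (q y) : ℂ)) z v = c * fderiv ℝ (fun y => (q y : ℂ)) z v := by
  have h1 : HasFDerivAt (fun y => φ (q y)) (c • fderiv ℝ q z) z :=
    hφ.comp_hasFDerivAt z hq.hasFDerivAt
  have h2 := (Complex.ofRealCLM.hasFDerivAt.comp z h1).fderiv
  have h3 := (Complex.ofRealCLM.hasFDerivAt.comp z hq.hasFDerivAt).fderiv
  have h4 : fderiv ℝ (fun y => (φ (q y) : ℂ)) z = _ := h2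
  have h5 : fderiv ℝ (fun y => (q y : ℂ)) z = _ := h3
  rw [h4, h5]
  simp

lemma dz_chain {q : Cm n → ℝ} {φ : ℝ → ℝ} {c : ℝ} (hq : DifferentiableAt ℝ q z)
    (hφ : HasDerivAt φ c (q z)) :
    dz j (fun y => (φ (q y) : ℂ)) z = c * dz j (fun y => (q y : ℂ)) z := by
  unfold dz
  rw [fderiv_chain hq hφ, fderiv_chain hq hφ]
  ring

lemma dzb_chain {q : Cm n → ℝ} {φ : ℝ → ℝ} {c : ℝ} (hq : DifferentiableAt ℝ q z)
    (hφ : HasDerivAt φ c (q z)) :
    dzb j (fun y => (φ (q y) : ℂ)) z = c * dzb j (fun y => (q y : ℂ)) z := by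
  unfold dzb
  rw [fderiv_chain hq hφ, fderiv_chain hq hφ]
  ring

lemma lin_diff (c : Fin n → ℂ) : DifferentiableAt ℂ (fun y : Cm n => ∑ i, c i * y i) z := by
  fun_prop

lemma dz_lin (c : Fin n → ℂ) : dz j (fun y : Cm n => ∑ i, c i * y i) z = c j := by
  rw [dz_of_holo (lin_diff c)]
  have h1 : HasFDerivAt (fun y : Cm n => ∑ i, c i * y i)
      (∑ i, c i • (ContinuousLinearMap.proj i : Cm n →L[ℂ] ℂ)) z :=
    HasFDerivAt.fun_sum fun i _ => (hasFDerivAt_apply i z).const_mul (c i)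
  rw [h1.fderiv]
  simp [Pi.single_apply]

lemma coord_diff (i : Fin n) : DifferentiableAt ℂ (fun y : Cm n => y i) z := by fun_prop

lemma dz_coord (i : Fin n) : dz j (fun y : Cm n => y i) z = if i = j then 1 else 0 := by
  rw [dz_of_holo (coord_diff i), (hasFDerivAt_apply (𝕜 := ℂ) i z).fderiv]
  simp [Pi.single_apply]

lemma cj_diff (i : Fin n) : DifferentiableAt ℝ (fun y : Cm n => cj (y i)) z :=
  Complex.conjCLE.differentiableAt.comp z ((coord_diff i).restrictScalars ℝ)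

lemma quad_split (Q : Matrix (Fin n) (Fin n) ℂ) :
    quad Q = fun y => ∑ k, (∑ i, Q i k * y i) * cj (y k) := by
  funext y
  unfold quad
  rw [Finset.sum_comm]
  refine Finset.sum_congr rfl fun k _ => ?_
  rw [Finset.sum_mul]
  exact Finset.sum_congr rfl fun i _ => by ring

lemma dzb_quad : dzb k (quad Q) z = ∑ i, Q i k * z i := by
  rw [quad_split, dzb_sum (F := fun l y => (∑ i, Q i l * y i) * cj (y l)) _
    fun l _ => ((lin_diff _).restrictScalars ℝ).mul (cj_diff l)]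
  have h1 : ∀ l, dzb k (fun y : Cm n => (∑ i, Q i l * y i) * cj (y l)) z =
      if l = k then ∑ i, Q i l * z i else 0 := by
    intro l
    rw [dzb_mul ((lin_diff _).restrictScalars ℝ) (cj_diff l), dzb_of_holo (lin_diff _),
      dzb_cj ((coord_diff l).restrictScalars ℝ), dz_coord]
    split_ifs <;> simp
  simp [h1]

lemma dz_quad : dz j (quad Q) z = ∑ l, Q j l * cj (z l) := by
  rw [quad_split, dz_sum (F := fun l y => (∑ i, Q i l * y i) * cj (y l)) _
    fun l _ => ((lin_diff _).restrictScalars ℝ).mul (cj_diff l)]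
  refine Finset.sum_congr rfl fun l _ => ?_
  rw [dz_mul ((lin_diff _).restrictScalars ℝ) (cj_diff l), dz_lin (fun i => Q i l),
    dz_cj ((coord_diff l).restrictScalars ℝ), dzb_of_holo (coord_diff l)]
  simp

lemma quad_smooth : ContDiffAt ℝ 2 (fun y => (quad Q y).re) z := by
  refine Complex.reCLM.contDiff.contDiffAt.comp z (f := quad Q) ?_
  unfold quad
  refine ContDiffAt.sum fun i _ => ContDiffAt.sum fun l _ => contDiffAt_const.mul ?_
  exact (contDiffAt_apply ℝ ℂ i z).mul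
    (Complex.conjCLE.contDiff.contDiffAt.comp z (contDiffAt_apply ℝ ℂ l z))

lemma vecMul_eq (Q : Matrix (Fin n) (Fin n) ℂ) (z : Cm n) (k : Fin n) :
    (z ᵥ* Q) k = ∑ i, Q i k * z i := by
  unfold Matrix.vecMul dotProduct
  exact Finset.sum_congr rfl fun i _ => mul_comm (z i) (Q i k)

/-- the potential of the ellipsoid -/
def pot (Q : Matrix (Fin n) (Fin n) ℂ) (y : Cm n) : ℝ := -Real.log (1 - (quad Q y).re)

lemma pot_smooth (hz : (quad Q z).re < 1) : ContDiffAt ℝ 2 (pot Q) z :=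
  ((contDiffAt_const.sub quad_smooth).log (sub_pos.2 hz).ne').neg

lemma cHess_pot (hQ : Q.IsHermitian) (hz : (quad Q z).re < 1) :
    cHess (pot Q) z = (((1 - (quad Q z).re)⁻¹ : ℝ) : ℂ) • Q +
      ((((1 - (quad Q z).re)⁻¹) ^ 2 : ℝ) : ℂ) • Matrix.vecMulVec (Q *ᵥ star z) (z ᵥ* Q) := by
  have hq : (fun y => (((quad Q y).re : ℝ) : ℂ)) = quad Q := funext fun y => GJ.quad_real hQ y
  have hd : ∀ y : Cm n, DifferentiableAt ℝ (fun y => (quad Q y).re) y := fun y =>
    quad_smooth.differentiableAt (by norm_num)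
  have hev : ∀ᶠ y in 𝓝 z, (quad Q y).re < 1 :=
    (hd z).continuousAt.eventually (gt_mem_nhds hz)
  ext j k
  rw [cHess_apply]
  have h1 : dzb k (fun y => (pot Q y : ℂ)) =ᶠ[𝓝 z]
      fun y => (((1 - (quad Q y).re)⁻¹ : ℝ) : ℂ) * ∑ i, Q i k * y i := by
    filter_upwards [hev] with y hy
    have h2 : HasDerivAt (fun t : ℝ => -Real.log (1 - t)) (1 - (quad Q y).re)⁻¹ (quad Q y).re := by
      have h3 := (((hasDerivAt_id (quad Q y).re).const_sub 1).log (sub_pos.2 hy).ne').neg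
      refine h3.congr_deriv ?_
      simp [neg_div]
    have h4 := dzb_chain (j := k) (hd y) h2
    rw [hq, dzb_quad] at h4
    exact h4
  have h2 : HasDerivAt (fun t : ℝ => (1 - t)⁻¹) (((1 - (quad Q z).re)⁻¹) ^ 2) (quad Q z).re := by
    have h3 := ((hasDerivAt_id (quad Q z).re).const_sub 1).inv (sub_pos.2 hz).ne'
    refine h3.congr_deriv ?_
    simp
  have h3 := dz_chain (j := j) (hd z) h2
  rw [hq, dz_quad] at h3
  have h4 : DifferentiableAt ℝ (fun y => (((1 - (quad Q y).re)⁻¹ : ℝ) : ℂ)) z :=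
    Complex.ofRealCLM.differentiableAt.comp z
      (((differentiableAt_const _).sub (hd z)).inv (sub_pos.2 hz).ne')
  rw [dz_congr h1, dz_mul h4 ((lin_diff _).restrictScalars ℝ), h3, dz_lin (fun i => Q i k)]
  have h5 : (z ᵥ* Q) k = ∑ i, Q i k * z i := vecMul_eq Q z k
  have h6 : (Q *ᵥ star z) j = ∑ l, Q j l * cj (z l) := rfl
  simp only [Matrix.add_apply, Matrix.smul_apply, Matrix.vecMulVec_apply, smul_eq_mul, h5, h6]
  ring

lemma cHess_pot_pos (hQ : Q.PosDef) (hz : (quad Q z).re < 1) : (cHess (pot Q) z).PosDef := by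
  rw [cHess_pot hQ.1 hz]
  have h1 : z ᵥ* Q = star (Q *ᵥ star z) := by
    rw [Matrix.star_mulVec, star_star, hQ.1.eq]
  rw [h1]
  exact (posDef_ofReal_smul hQ (inv_pos.2 (sub_pos.2 hz))).add_posSemidef
    (posSemidef_ofReal_smul (Matrix.posSemidef_vecMulVec_self_star _) (sq_nonneg _))

lemma det_cHess_pot (hQ : Q.IsHermitian) (hz : (quad Q z).re < 1) :
    (cHess (pot Q) z).det.re = ((1 - (quad Q z).re)⁻¹) ^ (n + 1) * Q.det.re := by
  set s : ℝ := (1 - (quad Q z).re)⁻¹ with hs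
  have h1 : cHess (pot Q) z =
      (s : ℂ) • (Q * (1 + Matrix.vecMulVec ((s : ℂ) • star z) (z ᵥ* Q))) := by
    rw [cHess_pot hQ hz, Matrix.mul_add, Matrix.mul_one, Matrix.mul_vecMulVec,
      Matrix.mulVec_smul, Matrix.smul_vecMulVec, smul_add, smul_smul, ← hs]
    push_cast
    rw [sq]
  have h2 : (z ᵥ* Q) ⬝ᵥ star z = (((quad Q z).re : ℝ) : ℂ) := by
    rw [GJ.quad_real hQ, quad_split]
    refine Finset.sum_congr rfl fun k _ => ?_
    rw [vecMul_eq]
    rfl
  have h3 : (1 : ℂ) + (s : ℂ) * (((quad Q z).re : ℝ) : ℂ) = s := by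
    have h4 : 1 + s * (quad Q z).re = s := by
      have := (sub_pos.2 hz).ne'
      rw [hs]
      field_simp
      ring
    exact_mod_cast h4
  rw [h1, Matrix.det_smul, Matrix.det_mul, Matrix.vecMulVec_eq Unit,
    Matrix.det_one_add_replicateCol_mul_replicateRow, dotProduct_smul, h2, smul_eq_mul, h3,
    Fintype.card_fin]
  have h5 : (s : ℂ) ^ n * (Q.det * s) = ((s ^ (n + 1) : ℝ) : ℂ) * Q.det := by
    push_cast
    ring
  rw [h5, Complex.re_ofReal_mul]

/-- the Kähler-Einstein potential of the ellipsoid `Q < 1` -/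
def kep (Q : Matrix (Fin n) (Fin n) ℂ) (y : Cm n) : ℝ :=
  Real.log ((n + 1) ^ n * Q.det.re) + (n + 1) * pot Q y

lemma kep_spec (hQ : Q.PosDef) (hz : (quad Q z).re < 1) :
    ContDiffAt ℝ 2 (kep Q) z ∧ (cHess (kep Q) z).PosDef ∧
      Real.exp (kep Q z) = (cHess (kep Q) z).det.re := by
  have h1 := pot_smooth hz
  have h2 : cHess (kep Q) z = ((n + 1 : ℝ) : ℂ) • cHess (pot Q) z := by
    unfold kep
    rw [cHess_add contDiffAt_const (contDiffAt_const.mul h1), N.cHess_const, zero_add,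
      cHess_const_mul _ h1]
  have hd : 0 < Q.det.re := by
    have h := hQ.det_pos
    rw [Complex.lt_def] at h
    simpa using h.1
  have hp := sub_pos.2 hz
  refine ⟨contDiffAt_const.add (contDiffAt_const.mul h1), ?_, ?_⟩
  · rw [h2]
    exact posDef_ofReal_smul (cHess_pot_pos hQ hz) (by positivity)
  · rw [h2, Matrix.det_smul, Fintype.card_fin, ← Complex.ofReal_pow, Complex.re_ofReal_mul,
      det_cHess_pot hQ.1 hz, kep, Real.exp_add, Real.exp_log (by positivity), pot,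
      ← Real.log_inv, ← Nat.cast_succ, Real.exp_nat_mul, Real.exp_log (by positivity),
      Nat.succ_eq_add_one]
    ring

lemma exp_kep_zero (hQ : Q.PosDef) : Real.exp (kep Q 0) = (n + 1) ^ n * Q.det.re := by
  have hd : 0 < Q.det.re := by
    have h := hQ.det_pos
    rw [Complex.lt_def] at h
    simpa using h.1
  have h1 : pot Q 0 = 0 := by simp [pot, quad]
  rw [kep, h1, mul_zero, add_zero, Real.exp_log (by positivity)]

end Vale.Agent.N272X
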