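import Vale.Agent.P272.EX.B11
import Vale.Agent.P272.H696.B14
import Vale.Agent.P272.H696.S12
import Vale.Agent.P272.BD.Main
import Vale.Agent.P272.BR.B4
import Vale.Agent.P272.JN.Limit
import Vale.Agent.P272.GEO.B9

/-!
# N272X: extremal discs for the functional `u(f'(0)) - T_h(f)`

`u` is a function on the tangent space at the centre, of class `C²` along the set of all
velocities `f'(0)` of holomorphic discs.
-/

open scoped Manifold ContDiff ComplexOrder Topology ENNReal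
open MeasureTheory Metric Set Filter

set_option linter.all false

noncomputable section

namespace Vale.Agent.N272X

open Vale.Agent.P272 Vale.Agent.P272.K Vale.Agent.P272.BR Vale.Agent.P272.HY
  Vale.Agent.P272.GJ Vale.Agent.P272.EX

variable {n : ℕ} {X : Type} [TopologicalSpace X] [ChartedSpace (Cm n) X]
  {h : Chart n X → Cm n → Matrix (Fin n) (Fin n) ℂ} {e : Chart n X} {x : X} {u : Cm n → ℝ}
  {f : ℂ → X} {M : ℝ}

/-- the velocities at the centre of the holomorphic discs centred at `x` -/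
def Ind (e : Chart n X) (x : X) : Set (Cm n) := {v | ∃ f, HolD n f ∧ f 0 = x ∧ vel f e 0 = v}

/-- the functional -/
def Psi (h : Chart n X → Cm n → Matrix (Fin n) (Fin n) ℂ) (e : Chart n X) (u : Cm n → ℝ)
    (f : ℂ → X) : ℝ := u (vel f e 0) - (HY.TE h 1 f).toReal

/-- maximisers -/
structure IsMx (h : Chart n X → Cm n → Matrix (Fin n) (Fin n) ℂ) (e : Chart n X) (x : X)
    (u : Cm n → ℝ) (f : ℂ → X) : Prop where
  holo : HolD n f
  base : f 0 = x
  fin : HY.TE h 1 f ≠ ⊤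
  max : ∀ g : ℂ → X, HolD n g → g 0 = x → HY.TE h 1 g ≠ ⊤ → Psi h e u g ≤ Psi h e u f

lemma vel_const (x : X) (e : Chart n X) : vel (fun _ : ℂ => x) e 0 = 0 := by
  unfold vel; simp

lemma IsMx.congr {g : ℂ → X} (hf : IsMx h e x u f) (hg : ∀ z ∈ ball (0 : ℂ) 1, g z = f z) :
    IsMx h e x u g := by
  have h0 : g =ᶠ[𝓝 0] f := by
    filter_upwards [isOpen_ball.mem_nhds (mem_ball_self one_pos)] with ζ hζ using hg ζ hζ
  refine ⟨holD_congr hf.holo hg, by rw [h0.self_of_nhds, hf.base], ?_, fun g' h1 h2 h3 => ?_⟩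
  · rw [te_congr h hg]; exact hf.fin
  · have h4 : Psi h e u g = Psi h e u f := by
      unfold Psi
      rw [te_congr h hg, vel_congr h0]
    rw [h4]
    exact hf.max g' h1 h2 h3

variable [IsManifold 𝓘(ℂ, Cm n) ω X]

lemma zero_mem_Ind (e : Chart n X) (x : X) : (0 : Cm n) ∈ Ind e x :=
  ⟨fun _ => x, holOn_const x _, rfl, vel_const x e⟩

lemma IsMx.cost (hf : IsMx h e x u f) : (HY.TE h 1 f).toReal ≤ u (vel f e 0) - u 0 := by
  have h0 : HY.TE h 1 (fun _ : ℂ => x) = 0 := BR.TE_const h x 1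
  have h1 := hf.max (fun _ => x) (holOn_const x _) rfl (by rw [h0]; exact ENNReal.zero_ne_top)
  unfold Psi at h1
  rw [h0, vel_const] at h1
  simp only [ENNReal.toReal_zero, sub_zero] at h1
  linarith

/-- the second variation at a maximiser -/
theorem IsMx.extremal (hh : IsKahler h) (he : At e x) (hu : ∀ v ∈ Ind e x, ContDiffAt ℝ 2 u v)
    (hf : IsMx h e x u f) {δ : ℝ} {F : ℂ → Cm n → X} (hF : HolTube f δ F)
    (p : Fin n → Polynomial ℂ) :
    hq ((tj F e 0 0).transpose * cHess u (vel f e 0) * (tj F e 0 0).map (starRingEnd ℂ))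
      (fun i => (p i).eval 0) ≤
      1 * Real.circleAverage (fun z => hq (pbM h F z) (fun i => (p i).eval z)) 0 1 := by
  have h01 : (0 : ℂ) ∈ ball (0 : ℂ) 1 := mem_ball_self one_pos
  obtain ⟨ε, hε0, hε⟩ := exists_eps (W := fun z => z • pv p z) hF.pos
    (zpv_diff p).continuous.continuousOn
  set Γ := Gam F (fun z => z • pv p z) with hΓ
  have hH := hh.toIsHermitian
  have he0 : At e (f 0) := by rw [hf.base]; exact he
  have h0 : ∀ z ∈ ball (0 : ℂ) 1, Γ 0 z = f z := gam_eqOn hF _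
  have hT0 : TT (spd h (Γ 0)) = HY.TE h 1 f := by
    rw [← TE_eq_TT]; exact S2D.TE_congr h0 le_rfl
  have hx0 : ∀ s, Γ s 0 = x := fun s => by
    rw [← hf.base]; exact gam_base hF (zero_smul ℂ _) s
  have hΓ2 : ∀ s ∈ ball (0 : ℂ) ε, ∀ z ∈ ball (0 : ℂ) 1, HolAt2 n Γ (s, z) :=
    fun s hs z hz => gam_holAt2 hF (zpv_diff p) hε hs hz
  have hev : ∀ s ∈ ball (0 : ℂ) ε, ∀ z ∈ ball (0 : ℂ) 1,
      ∀ᶠ q in 𝓝 ((s, z) : ℂ × ℂ), HolAt2 n Γ q := fun s hs z hz =>
    ev_of_prod (P := fun q => HolAt2 n Γ q) hΓ2 hs hz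
  have hhol : ∀ s ∈ ball (0 : ℂ) ε, HolD n (Γ s) := fun s hs => gam_holD hF (zpv_diff p) hε hs
  set a : ℂ → Cm n := fun s => vel (Γ s) e 0 with ha
  have hat : ∀ s, At e (Γ s 0) := fun s => by rw [hx0 s]; exact he
  have had : DifferentiableOn ℂ a (ball 0 ε) := fun s hs =>
    (hasDerivAt_vel_snd (hev s hs 0 h01) (hat s)).differentiableAt.differentiableWithinAt
  have han : ∀ s ∈ ball (0 : ℂ) ε, AnalyticAt ℂ a s := fun s hs =>
    had.analyticAt (isOpen_ball.mem_nhds hs)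
  have hmem : ∀ s ∈ ball (0 : ℂ) ε, a s ∈ Ind e x := fun s hs => ⟨Γ s, hhol s hs, hx0 s, rfl⟩
  have h00 : (0 : ℂ) ∈ ball (0 : ℂ) ε := mem_ball_self hε0
  have ha0 : a 0 = vel f e 0 := by
    refine vel_congr ?_
    filter_upwards [isOpen_ball.mem_nhds h01] with z hz using h0 z hz
  set B : ℂ → ℝ := fun s => u (a s) with hB
  have hB2 : ∀ s ∈ ball (0 : ℂ) ε, ContDiffAt ℝ 2 B s := fun s hs =>
    (hu _ (hmem s hs)).comp s ((han s hs).contDiffAt.restrict_scalars ℝ)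
  have hd : deriv a 0 = (tj F e 0 0).mulVec (pv p 0) := by
    rw [ha, deriv_vel_symm (hev 0 h00 0 h01) (hat 0),
      (gam_mixed hF (pv_diff p).continuous hε hε0 he0).deriv]
  have hc : ddb B 0 = hq ((tj F e 0 0).transpose * cHess u (vel f e 0) *
      (tj F e 0 0).map (starRingEnd ℂ)) (fun i => (p i).eval 0) := by
    rw [hB, JN.ddb_comp_holo (han 0 h00) (hu _ (hmem 0 h00)), hd, ha0]
    unfold hq
    rw [BR.quad_change]
    rfl
  rw [← hc, ← gam_avg hH hF hε hε0]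
  refine le_of_forall_pos_le_add fun η hη => ?_
  have hcont : ContinuousAt (ddb B) 0 := by
    have h1 : ContinuousOn (ddb B) (closedBall 0 (ε / 2)) :=
      contOn_ddb fun z hz => hB2 z (closedBall_subset_ball (by linarith) hz)
    exact h1.continuousAt (closedBall_mem_nhds _ (by linarith))
  obtain ⟨r, hr, hr'⟩ := Metric.eventually_nhds_iff_ball.1
    (hcont.eventually (lt_mem_nhds (show ddb B 0 - η < ddb B 0 by linarith)))
  set ε1 := min ε r with hε1
  have hε1p : 0 < ε1 := lt_min hε0 hr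
  have hsub : ball (0 : ℂ) ε1 ⊆ ball 0 ε := ball_subset_ball (min_le_left _ _)
  have hsub' : ball (0 : ℂ) ε1 ⊆ ball 0 r := ball_subset_ball (min_le_right _ _)
  have key := second_variation (Θ := fun s z => spd h (Γ s) z)
    (Ξ := fun s z => spd h (fun σ => Γ σ z) s) hε1p
    (fun s hs z hz => (contDiffAt_spd_snd hH (hev s (hsub hs) z hz)).of_le two_le_infty)
    (fun s hs z hz => (contDiffAt_spd_fst hH (hev s (hsub hs) z hz)).of_le two_le_infty)
    (fun s hs z hz => spd_identity hh (hev s (hsub hs) z hz))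
    (fun s hs z hz => spd_nonneg hH _ _) (fun s hs => spd_nonneg hH _ _)
    ((gam_spd_cont hH hF (zpv_diff p).continuous hε).mono (prod_mono hsub le_rfl))
    (B := B) (fun s hs => (hB2 s (hsub hs)).continuousAt.continuousWithinAt)
    (c := ddb B 0 - η) ?_ (lam := 1) zero_le_one (by rw [hT0]; exact hf.fin) ?_
  · linarith
  · intro t ht
    have hcl : closedBall (0 : ℂ) t ⊆ ball 0 ε1 := closedBall_subset_ball ht.2
    have hC : ∀ z ∈ closedBall (0 : ℂ) t, ContDiffAt ℝ 2 B z := fun z hz => hB2 z (hsub (hcl hz))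
    have h1 := green_jensen ht.1 hC
    have h2 : ∫ z in ball (0 : ℂ) t, Gr t z * (ddb B 0 - η) ≤
        ∫ z in ball (0 : ℂ) t, Gr t z * ddb B z := by
      refine setIntegral_mono_on ((integrableOn_Gr ht.1).mul_const _)
        (integrableOn_Gr_mul ht.1 (contOn_ddb hC)) measurableSet_ball fun z hz => ?_
      exact mul_le_mul_of_nonneg_left (hr' z (hsub' (hcl (ball_subset_closedBall hz)))).le
        (Gr_nonneg hz)
    rw [integral_mul_const, integral_Gr ht.1] at h2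
    linarith
  · intro s hs hTs
    have h1 := hf.max (Γ s) (hhol s (hsub hs)) (hx0 s) hTs
    unfold Psi at h1
    rw [TE_eq_TT h (Γ s)] at h1
    rw [hT0]
    have h2 : B 0 = u (vel f e 0) := by rw [hB]; simp only [ha0]
    have h3 : B s = u (vel (Γ s) e 0) := rfl
    rw [h2, h3]
    linarith

variable [T2Space X] [CompactSpace X]

/-- normal families of discs with the same centre -/
lemma limit (hh : IsHermitian h) (hM : ∀ f : ℂ → X, HolD n f → spd h f 0 ≤ M) (he : At e x)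
    {F : ℕ → ℂ → X} (hF : ∀ k, HolD n (F k)) (hx : ∀ k, F k 0 = x) :
    ∃ φ : ℕ → ℕ, StrictMono φ ∧ ∃ g : ℂ → X, HolD n g ∧ g 0 = x ∧
      Tendsto (fun k => vel (F (φ k)) e 0) atTop (𝓝 (vel g e 0)) ∧
      HY.TE h 1 g ≤ liminf (fun k => HY.TE h 1 (F (φ k))) atTop := by
  haveI : Nonempty X := ⟨x⟩
  have hD : DiscBound h M := discBound_of_zero hM
  obtain ⟨φ, hφ, g, hg, hconv⟩ := normal hh isOpen_ball F (U := ball (0:ℂ) 1) (by
    intro z hz
    have hz1 : ‖z‖ < 1 := by simpa using hz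
    refine ⟨(1 - ‖z‖) / 2, by linarith, M / (1 - (1 + ‖z‖) / 2) ^ 2, Eventually.of_forall ?_⟩
    intro k y hy
    have hy1 : ‖y‖ ≤ (1 + ‖z‖) / 2 := by
      have h1 : ‖y - z‖ < (1 - ‖z‖) / 2 := by simpa [dist_eq_norm] using hy
      have h2 : ‖y‖ ≤ ‖y - z‖ + ‖z‖ := by simpa using norm_add_le (y - z) z
      linarith
    refine ⟨hF k y (by simp only [mem_ball_zero_iff]; linarith), ?_⟩
    exact hD.le_of_mem (hF k) (by linarith) hy1)
  have h0 : (0:ℂ) ∈ ball (0:ℂ) 1 := by simp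
  have hg0 : g 0 = x := by
    refine tendsto_nhds_unique (hconv.tendsto hg h0) ?_
    simp only [hx]
    exact tendsto_const_nhds
  refine ⟨φ, hφ, g, hg, hg0, hconv.vel_along hg h0 (by rw [hg0]; exact he) tendsto_const_nhds, ?_⟩
  exact TL_fatou (fun k => ((hF _).continuousOn_spd isOpen_ball hh).aemeasurable
    measurableSet_ball) fun z hz => hconv.spd hh hg hz

lemma isCompact_Ind (hh : IsHermitian h) (hM : ∀ f : ℂ → X, HolD n f → spd h f 0 ≤ M)
    (he : At e x) : IsCompact (Ind e x) := by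
  refine IsSeqCompact.isCompact fun v hv => ?_
  choose F h1 h2 h3 using hv
  obtain ⟨φ, hφ, g, hg, hg0, hl, -⟩ := limit hh hM he h1 h2
  refine ⟨vel g e 0, ⟨g, hg, hg0, rfl⟩, φ, hφ, ?_⟩
  simp only [h3] at hl
  exact hl

theorem exists_mx (hh : IsHermitian h) (hM : ∀ f : ℂ → X, HolD n f → spd h f 0 ≤ M)
    (he : At e x) (hu : ∀ v ∈ Ind e x, ContinuousAt u v) : ∃ f, IsMx h e x u f := by
  obtain ⟨C, hC⟩ := (isCompact_Ind hh hM he).bddAbove_image
    (f := u) fun v hv => (hu v hv).continuousWithinAt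
  set S : Set ℝ := Psi h e u '' {g | HolD n g ∧ g 0 = x ∧ HY.TE h 1 g ≠ ⊤} with hS
  have h0 : HY.TE h 1 (fun _ : ℂ => x) = 0 := BR.TE_const h x 1
  have hne : S.Nonempty :=
    ⟨_, fun _ => x, ⟨holOn_const x _, rfl, by rw [h0]; exact ENNReal.zero_ne_top⟩, rfl⟩
  have hbd : BddAbove S := ⟨C, by
    rintro _ ⟨g, hg, rfl⟩
    have h1 : u (vel g e 0) ≤ C := hC ⟨_, ⟨g, hg.1, hg.2.1, rfl⟩, rfl⟩
    have h2 : 0 ≤ (HY.TE h 1 g).toReal := ENNReal.toReal_nonneg
    unfold Psi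
    linarith⟩
  obtain ⟨c, -, hc, hmem⟩ := exists_seq_tendsto_sSup hne hbd
  choose F hF hFc using hmem
  obtain ⟨φ, hφ, g, hg, hg0, hl, hfat⟩ := limit hh hM he (fun k => (hF k).1) fun k => (hF k).2.1
  have hu' : Tendsto (fun k => u (vel (F (φ k)) e 0)) atTop (𝓝 (u (vel g e 0))) :=
    (hu _ ⟨g, hg, hg0, rfl⟩).tendsto.comp hl
  have hT : Tendsto (fun k => (HY.TE h 1 (F (φ k))).toReal) atTop
      (𝓝 (u (vel g e 0) - sSup S)) := by
    refine (hu'.sub (hc.comp hφ.tendsto_atTop)).congr fun k => ?_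
    have := hFc (φ k)
    unfold Psi at this
    simp only [Function.comp_apply]
    linarith
  have hL : 0 ≤ u (vel g e 0) - sSup S :=
    ge_of_tendsto hT (Eventually.of_forall fun k => ENNReal.toReal_nonneg)
  have h2 : Tendsto (fun k => HY.TE h 1 (F (φ k))) atTop
      (𝓝 (ENNReal.ofReal (u (vel g e 0) - sSup S))) := by
    refine ((ENNReal.continuous_ofReal.tendsto _).comp hT).congr fun k => ?_
    exact ENNReal.ofReal_toReal (hF _).2.2
  rw [h2.liminf_eq] at hfat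
  refine ⟨g, hg, hg0, ne_top_of_le_ne_top ENNReal.ofReal_ne_top hfat, fun g' h3 h4 h5 => ?_⟩
  have h6 := ENNReal.toReal_le_of_le_ofReal hL hfat
  have h7 : Psi h e u g' ≤ sSup S := le_csSup hbd ⟨g', ⟨h3, h4, h5⟩, rfl⟩
  have h8 : Psi h e u g = u (vel g e 0) - (HY.TE h 1 g).toReal := rfl
  linarith

/-- a maximiser extends continuously to the closed disc -/
theorem IsMx.extend (hh : IsHermitian h) (hM : ∀ f : ℂ → X, HolD n f → spd h f 0 ≤ M)
    (he : At e x) (hf : IsMx h e x u f) (hu : ContDiffAt ℝ 1 u (vel f e 0)) :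
    ∃ g : ℂ → X, ContinuousOn g (closedBall 0 1) ∧ ∀ z ∈ ball (0 : ℂ) 1, g z = f z := by
  set v := vel f e 0 with hv
  obtain ⟨K, t, ht, hK⟩ := hu.exists_lipschitzOnWith
  have H : ∃ C : ℝ, 0 ≤ C ∧ ∀ (ζ : ℂ) (ρ : ℝ), ‖ζ‖ = 1 → 0 < ρ → ρ ≤ 1 →
      ∀ᶠ ε in 𝓝[>] (0 : ℝ),
      ∫⁻ z in ball (0 : ℂ) 1, ENNReal.ofReal (GJ.Gr 1 z * BR.spd h f z) ≤
      (∫⁻ z in ball (0 : ℂ) 1, ENNReal.ofReal (GJ.Gr 1 z *
        (‖BD.ph' ζ ρ ε z‖ ^ 2 * BR.spd h f (BD.ph ζ ρ ε z)))) + ENNReal.ofReal (C * ε) := by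
    refine ⟨K * ‖v‖, by positivity, fun ζ ρ hζ hρ hρ1 => ?_⟩
    have e1 : ∀ᶠ ε in 𝓝[>] (0 : ℝ), ε ≤ ρ :=
      (eventually_le_nhds hρ).filter_mono nhdsWithin_le_nhds
    have e2 : ∀ᶠ ε in 𝓝[>] (0 : ℝ), ε * (1 + ρ) < ρ ^ 2 := by
      have : Tendsto (fun ε : ℝ => ε * (1 + ρ)) (𝓝 0) (𝓝 (0 * (1 + ρ))) :=
        (continuous_id.mul continuous_const).tendsto 0
      rw [zero_mul] at this
      exact (this.eventually_lt_const (by positivity)).filter_mono nhdsWithin_le_nhds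
    have e3 : ∀ᶠ ε in 𝓝[>] (0 : ℝ), ((1 - ε / (1 + ρ) : ℝ) : ℂ) • v ∈ t := by
      have h1 : Continuous fun ε : ℝ => ((1 - ε / (1 + ρ) : ℝ) : ℂ) • v := by fun_prop
      have h2 := h1.tendsto 0
      simp only [zero_div, sub_zero, Complex.ofReal_one, one_smul] at h2
      exact (h2.eventually ht).filter_mono nhdsWithin_le_nhds
    filter_upwards [e1, e2, e3, self_mem_nhdsWithin] with ε h2 h3 h1 h4
    have h4' : 0 < ε := h4
    have hTE := BD.comp_TE (w := h) hf.holo hζ hρ h4'.le h2 (r := 1) le_rfl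
    have hvar := BD.energy_var hζ hρ h4' h2 h3 (s := BR.spd h f)
      (HolOn.continuousOn_spd isOpen_ball hh hf.holo) (fun z hz => spd_nonneg hh f z)
    have hholo := BD.comp_holD hf.holo hζ hρ h4'.le h2
    have hfin : HY.TE h 1 (fun z => f (BD.ph ζ ρ ε z)) ≠ ⊤ := by
      rw [hTE]
      exact ne_top_of_le_ne_top hf.fin (le_self_add.trans hvar)
    have hmax := hf.max _ hholo (by simp [hf.base]) hfin
    unfold Psi at hmax
    have h01 : (0 : ℂ) ∈ ball (0 : ℂ) 1 := mem_ball_self one_pos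
    have hd := BD.ph_hasDerivAt (ε := ε) (BD.den_ne hζ hρ h01)
    have hs0 : vel (fun z => f (BD.ph ζ ρ ε z)) e 0 = ((1 - ε / (1 + ρ) : ℝ) : ℂ) • v := by
      rw [vel_comp (φ := BD.ph ζ ρ ε) (by rw [BD.ph_zero]; exact hf.holo 0 h01) hd.differentiableAt
        (by rw [BD.ph_zero, hf.base]; exact he), hd.deriv, BD.ph'_zero hρ, BD.ph_zero]
    rw [hs0, ← hv] at hmax
    have h5 := hK.dist_le_mul v (mem_of_mem_nhds ht) _ h1
    have h6 : dist v (((1 - ε / (1 + ρ) : ℝ) : ℂ) • v) ≤ ‖v‖ * ε := by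
      have h7 : v - ((1 - ε / (1 + ρ) : ℝ) : ℂ) • v = ((ε / (1 + ρ) : ℝ) : ℂ) • v := by
        rw [Complex.ofReal_sub, sub_smul, Complex.ofReal_one, one_smul, sub_sub_cancel]
      rw [dist_eq_norm, h7, norm_smul, Complex.norm_real, Real.norm_of_nonneg (by positivity),
        mul_comm]
      exact mul_le_mul_of_nonneg_left (div_le_self h4'.le (by linarith)) (norm_nonneg _)
    have h8 : u v - u (((1 - ε / (1 + ρ) : ℝ) : ℂ) • v) ≤ K * ‖v‖ * ε := by
      refine (le_abs_self _).trans ?_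
      rw [← Real.dist_eq, mul_assoc]
      exact h5.trans (mul_le_mul_of_nonneg_left h6 K.2)
    have h9 : (HY.TE h 1 f).toReal ≤ (HY.TE h 1 (fun z => f (BD.ph ζ ρ ε z))).toReal +
        K * ‖v‖ * ε := by linarith
    show HY.TE h 1 f ≤ _
    rw [← hTE]
    calc HY.TE h 1 f = ENNReal.ofReal (HY.TE h 1 f).toReal := (ENNReal.ofReal_toReal hf.fin).symm
      _ ≤ ENNReal.ofReal ((HY.TE h 1 (fun z => f (BD.ph ζ ρ ε z))).toReal + K * ‖v‖ * ε) :=
        ENNReal.ofReal_le_ofReal h9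
      _ = ENNReal.ofReal (HY.TE h 1 (fun z => f (BD.ph ζ ρ ε z))).toReal +
        ENNReal.ofReal (K * ‖v‖ * ε) :=
          ENNReal.ofReal_add ENNReal.toReal_nonneg (by positivity)
      _ = _ := by rw [ENNReal.ofReal_toReal hfin]
  obtain ⟨C, hC, hb⟩ := BD.cont_of_var hh hh hM hf.holo hf.fin H
  exact BD.extend hh hf.holo hC hb

/-- **the volume estimate**, for `u` of class `C²` on the closed indicatrix -/
theorem closed_form (hh : IsKahler h) (hR : RicGe h)
    (hM : ∀ f : ℂ → X, HolD n f → spd h f 0 ≤ M) (he : At e x)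
    (hu : ∀ v ∈ Ind e x, ContDiffAt ℝ 2 u v ∧ (cHess u v).PosDef ∧
      u v ≤ Real.log (cHess u v).det.re) :
    u 0 ≤ Real.log (h e (e x)).det.re := by
  have hH := hh.toIsHermitian
  obtain ⟨f, hf⟩ := exists_mx hH hM he fun v hv => (hu v hv).1.continuousAt
  obtain ⟨g, hgc, hgf⟩ := hf.extend hH hM he
    ((hu _ ⟨f, hf.holo, hf.base, rfl⟩).1.of_le (by norm_num))
  have hg := hf.congr hgf
  obtain ⟨δ, F, hF⟩ := GEO.b9 n X g hgc hg.holo
  have h00 : (0 : ℂ) ∈ closedBall (0 : ℂ) 1 := mem_closedBall_self zero_le_one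
  have hF0 : F 0 0 = x := by rw [hF.zero 0 h00, hg.base]
  obtain ⟨-, hpos, hle⟩ := hu _ ⟨g, hg.holo, hg.base, rfl⟩
  have hext := hg.extremal hh he (fun v hv => (hu v hv).1) hF
  obtain ⟨hPc, hPpd⟩ := PB.b13a n X h hH δ g F hF
  have hJ0 : (tj F e 0 0).det ≠ 0 := hF.inv 0 h00 e (by rw [hg.base]; exact he)
  have hQ : ((tj F e 0 0).transpose * cHess u (vel g e 0) *
      (tj F e 0 0).map (starRingEnd ℂ)).PosDef := by
    have h1 : (tj F e 0 0).transpose = ((tj F e 0 0).map (starRingEnd ℂ)).conjTranspose := by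
      ext i j; simp
    rw [h1]
    refine hpos.conjTranspose_mul_mul_same ?_
    refine Matrix.mulVec_injective_iff_isUnit.2 ?_
    exact (Matrix.isUnit_iff_isUnit_det _).2 (isUnit_conj (isUnit_iff_ne_zero.2 hJ0))
  have hS := s12 n (pbM h F) _ 1 (hPc.mono sphere_subset_closedBall)
    (fun z hz => hPpd z (sphere_subset_closedBall hz)) hQ one_pos hext
  have hJ := JN.b13 n X h hH hR δ g F hF hg.fin
  have hT := hg.cost
  have hp : (pbM h F 0).det.re = ‖(tj F e 0 0).det‖ ^ 2 * (h e (e x)).det.re := by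
    rw [PB.pbM_eq hH hF h00 (e := e) (by rw [hF0]; exact he), hF0]
    exact det_congr_re _ _
  have hn : 0 < ‖(tj F e 0 0).det‖ ^ 2 := by
    have := norm_pos_iff.2 hJ0
    positivity
  have hd := hermitian_det_pos hH he
  have hd' : 0 < (cHess u (vel g e 0)).det.re := JN.det_re_pos hpos
  rw [det_congr_re, Real.log_one, mul_zero, zero_add, Real.log_mul hn.ne' hd'.ne'] at hS
  rw [hp, Real.log_mul hn.ne' hd.ne'] at hJ
  linarith

end Vale.Agent.N272X
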