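import Vale.Agent.N272X.Defs
import Vale.Agent.N272X.Core
import Vale.Agent.N272X.Ball
import Vale.Agent.N272.KE

/-!
# N272X: passage between fields on the tangent spaces and families of coefficients in charts
-/

open scoped Manifold ContDiff ComplexOrder Topology Matrix
open Set Filter Metric

set_option linter.all false

noncomputable section

namespace Vale.Agent.N272X

open Vale.Agent.P272 Vale.Agent.P272.K Vale.Agent.P272.KOD Vale.Agent.P272.BR Vale.Agent.P272.HY

variable {n : ℕ} {X : Type} [TopologicalSpace X] [ChartedSpace (Cm n) X]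
  {e e' : Chart n X} {x : X} {z : Cm n} {h : X → S.Mat n}
  {w : Chart n X → Cm n → Matrix (Fin n) (Fin n) ℂ}

lemma mf_eq {E : Type} [NormedAddCommGroup E] [NormedSpace ℂ E] {f : E → X} {z : E}
    (hf : MDifferentiableAt 𝓘(ℂ, E) 𝓘(ℂ, Cm n) f z) :
    mfderiv 𝓘(ℂ, E) 𝓘(ℂ, Cm n) f z = fderiv ℂ (fun y => chartAt (Cm n) (f z) (f y)) z := by
  rw [hf.mfderiv]
  simp [writtenInExtChartAt, fderivWithin_univ, Function.comp_def]
  rfl

lemma form_eq (Q : S.Mat n) (v : Cm n) : S.form Q v = (quad Q v).re := by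
  unfold S.form quad dotProduct Matrix.mulVec dotProduct
  congr 1
  refine Finset.sum_congr rfl fun i _ => ?_
  rw [Finset.mul_sum]
  refine Finset.sum_congr rfl fun j _ => ?_
  simp only [Pi.star_apply, RCLike.star_def]
  ring

variable [IsManifold 𝓘(ℂ, Cm n) ω X]

lemma frame_eq (a : At e x) : S.frame e (e x) = jacM e (chartAt (Cm n) x) x := by
  ext p i
  have h1 : MDifferentiableAt 𝓘(ℂ, Cm n) 𝓘(ℂ, Cm n) e.symm (e x) :=
    (chart_symm_contMDiffAt a.1 a.mem_target).mdifferentiableAt (by simp)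
  rw [jacM_eq, jmat_apply (transition_differentiableAt a (BR.at_chartAt x)), S.frame,
    Matrix.of_apply, S.diff, mf_eq h1, a.left_inv]
  rfl

lemma loc_eq (h : X → S.Mat n) (a : At e x) : S.loc h e (e x) =
    (jacM e (chartAt (Cm n) x) x).transpose * h x *
      (jacM e (chartAt (Cm n) x) x).map (starRingEnd ℂ) := by
  rw [S.loc, frame_eq a, a.left_inv]

lemma loc_self (h : X → S.Mat n) (x : X) :
    S.loc h (chartAt (Cm n) x) (chartAt (Cm n) x x) = h x := by
  rw [loc_eq h (BR.at_chartAt x), jacM_self (BR.at_chartAt x)]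
  simp

lemma herm_of (hh : S.IsHermitian h) : IsHermitian (S.loc h) := by
  refine ⟨fun e x a => hh.2 e a.1 _ a.mem_target, fun e x a => ?_, fun e e' x a a' => ?_⟩
  · rw [loc_eq h a]
    exact N272.conj_pd (hh.1 x) (jacM_det_ne_zero a (BR.at_chartAt x))
  · rw [loc_eq h a, loc_eq h a', jacM_comp a a' (BR.at_chartAt x), Matrix.transpose_mul,
      Matrix.map_mul]
    simp only [Matrix.mul_assoc]

lemma kahler_of (hh : S.IsKahler h) : IsKahler (S.loc h) :=
  ⟨herm_of hh.1, fun e x a => hh.2 e a.1 _ a.mem_target⟩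

lemma le_of (hh : S.RicGe h) : N272.Le (-S.loc h) (N272.Ric (S.loc h)) := fun e x a => by
  have h1 := hh e a.1 _ a.mem_target
  simp only [Pi.neg_apply, sub_neg_eq_add]
  exact h1

/-- the field on the tangent spaces given by a family of coefficients -/
def ofK (w : Chart n X → Cm n → Matrix (Fin n) (Fin n) ℂ) (x : X) : S.Mat n :=
  w (chartAt (Cm n) x) (chartAt (Cm n) x x)

lemma loc_ofK (hw : IsHermitian w) (he : e ∈ atlas (Cm n) X) (hz : z ∈ e.target) :
    S.loc (ofK w) e z = w e z := by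
  have a := At.of_target he hz
  have h1 := loc_eq (ofK w) a
  have h2 := hw.change e _ _ a (BR.at_chartAt _)
  rw [e.right_inv hz] at h1 h2
  rw [h1, h2]
  rfl

lemma loc_ofK_ev (hw : IsHermitian w) (he : e ∈ atlas (Cm n) X) (hz : z ∈ e.target) :
    S.loc (ofK w) e =ᶠ[𝓝 z] w e := by
  filter_upwards [e.open_target.mem_nhds hz] with y hy using loc_ofK hw he hy

lemma kahler_ofK (hw : IsKahler w) : S.IsKahler (ofK w) := by
  have hH := hw.toIsHermitian
  have ev : ∀ e ∈ atlas (Cm n) X, ∀ z ∈ e.target, ∀ i j,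
      (fun y => S.loc (ofK w) e y i j) =ᶠ[𝓝 z] fun y => w e y i j := fun e he z hz i j => by
    filter_upwards [loc_ofK_ev hH he hz] with y hy
    rw [hy]
  refine ⟨⟨fun x => hH.posDef _ _ (BR.at_chartAt x), fun e he z hz i j => ?_⟩,
    fun e he z hz i j k => ?_⟩
  · have h1 := hH.smooth e _ (At.of_target he hz) i j
    rw [e.right_inv hz] at h1
    exact h1.congr_of_eventuallyEq (ev e he z hz i j)
  · have h1 := hw.closed e _ (At.of_target he hz) i j k
    rw [e.right_inv hz] at h1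
    exact ((dz_congr (ev e he z hz i j)).trans h1).trans (dz_congr (ev e he z hz k j)).symm

lemma ricEq_ofK (hw : IsHermitian w) (h1 : N272.Same (N272.Ric w) (-w)) : S.RicEq (ofK w) := by
  intro e he z hz
  have h2 := h1 e _ (At.of_target he hz)
  rw [e.right_inv hz] at h2
  have h3 : (fun y => Real.log (S.loc (ofK w) e y).det.re) =ᶠ[𝓝 z]
      fun y => Real.log (w e y).det.re := by
    filter_upwards [loc_ofK_ev hw he hz] with y hy
    rw [hy]
  rw [loc_ofK hw he hz]
  exact (congrArg Neg.neg (cHess_congr h3)).trans h2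

lemma val_mul {m : ℕ} (s : PSec n m X) (he : e ∈ atlas (Cm n) X) (hz : z ∈ e.target) :
    s.val (e.symm z) * (S.frame e z).det ^ m = s.coeff e z := by
  have a := At.of_target he hz
  have h1 := frame_eq a
  have h2 := s.change e _ _ a (BR.at_chartAt _)
  rw [e.right_inv hz] at h1 h2
  rw [h1, h2]
  rfl

theorem ample_of (hX : AmpleCanonical n X) : S.Ample n X := by
  obtain ⟨m, hm, N, s, hs⟩ := hX
  refine ⟨m, hm, N, fun j => (s j).val, fun j e he z hz => ?_, hs.ne_zero, hs.injective,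
    fun x i hi => ?_⟩
  · have h1 := ((s j).holo e _ (At.of_target he hz)).differentiableAt
    rw [e.right_inv hz] at h1
    refine h1.congr_of_eventuallyEq ?_
    filter_upwards [e.open_target.mem_nhds hz] with y hy using val_mul (s j) he hy
  · have a := BR.at_chartAt (n := n) x
    set c := chartAt (Cm n) x with hc
    have d : ∀ j, DifferentiableAt ℂ (fun z => (s j).coeff c z / (s i).coeff c z) (c x) :=
      fun j => (((s j).holo c x a).fun_div ((s i).holo c x a) hi).differentiableAt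
    have d1 : DifferentiableAt ℂ (fun z j => (s j).coeff c z / (s i).coeff c z) (c x) :=
      differentiableAt_pi.2 d
    have ev : (fun y j => (s j).val y / (s i).val y) =ᶠ[𝓝 x]
        (fun z j => (s j).coeff c z / (s i).coeff c z) ∘ c := by
      filter_upwards [c.open_source.mem_nhds a.2] with y hy
      have b : At c y := ⟨a.1, hy⟩
      funext j
      have h1 := val_mul (s j) a.1 b.mem_target
      have h2 := val_mul (s i) a.1 b.mem_target
      rw [b.left_inv, frame_eq b] at h1 h2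
      rw [Function.comp_apply, ← h1, ← h2,
        mul_div_mul_right _ _ (pow_ne_zero m (jacM_det_ne_zero b (BR.at_chartAt y)))]
    have m1 : MDifferentiableAt 𝓘(ℂ, Cm n) 𝓘(ℂ, Cm n) c x :=
      (chart_contMDiffAt a).mdifferentiableAt (by simp)
    change Function.Injective
      (mfderiv 𝓘(ℂ, Cm n) 𝓘(ℂ, Cm (N + 1)) (fun y j => (s j).val y / (s i).val y) x)
    rw [ev.mfderiv_eq, mfderiv_comp x d1.mdifferentiableAt m1, mfderiv_eq_fderiv]
    haveI := isManifold_one n X
    have i1 : Function.Injective (mfderiv 𝓘(ℂ, Cm n) 𝓘(ℂ, Cm n) c x) :=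
      (mdifferentiable_chart (I := 𝓘(ℂ, Cm n)) x).mfderiv_injective a.2
    have i2 : Function.Injective
        (fderiv ℂ (fun z j => (s j).coeff c z / (s i).coeff c z) (c x)) := by
      refine (injective_iff_map_eq_zero _).2 fun v hv => hs.immersive x i hi v fun j => ?_
      rw [fderiv_pi d] at hv
      exact congrFun hv j
    exact i2.comp i1

/-! ### the Kobayashi-Royden pseudometric -/

lemma mf_vel {f : ℂ → X} (hf : HolD n f) (hx : f 0 = x) :
    S.diff ℂ (Cm n) f 0 1 = vel f (chartAt (Cm n) x) 0 := by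
  rw [S.diff, mf_eq (holAt_iff_mdiff.1 (hf 0 (mem_ball_self one_pos))), hx]
  rfl

lemma royden_eq (x : X) (v : Cm n) : S.royden x v =
    sInf {t : ℝ | 0 < t ∧ ∃ a ∈ Ind (chartAt (Cm n) x) x, v = (t : ℂ) • a} := by
  unfold S.royden
  congr 1
  ext t
  constructor
  · rintro ⟨ht, f, hf, hx, hv⟩
    have hf' : HolD n f := (holOn_iff_mdiffOn isOpen_ball).2 hf
    exact ⟨ht, _, ⟨f, hf', hx, rfl⟩, by rw [hv, mf_vel hf' hx]⟩
  · rintro ⟨ht, _, ⟨f, hf, hx, rfl⟩, hv⟩
    exact ⟨ht, f, (holOn_iff_mdiffOn isOpen_ball).1 hf, hx, by rw [hv, mf_vel hf hx]⟩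

lemma royden_le {a : Cm n} (ha : a ∈ Ind (chartAt (Cm n) x) x) {t : ℝ} (ht : 0 < t) :
    S.royden x ((t : ℂ) • a) ≤ t := by
  rw [royden_eq]
  exact csInf_le ⟨0, fun s hs => hs.1.le⟩ ⟨ht, a, ha, rfl⟩

lemma royden_nonneg (x : X) (v : Cm n) : 0 ≤ S.royden x v :=
  Real.sInf_nonneg fun s hs => hs.1.le

/-- small discs in all directions -/
lemma exists_disc (a : At e x) (v : Cm n) : ∃ t : ℝ, 0 < t ∧ ∃ b ∈ Ind e x, v = (t : ℂ) • b := by
  obtain ⟨r, hr, hb⟩ := Metric.isOpen_iff.1 e.open_target _ a.mem_target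
  set s : ℝ := r / (‖v‖ + 1) with hs
  have hs0 : 0 < s := by positivity
  set G : ℂ → Cm n := fun ζ => e x + ζ • ((s : ℂ) • v) with hG
  have hd : ∀ ζ, HasDerivAt G ((s : ℂ) • v) ζ := fun ζ => by
    simpa [hG] using ((hasDerivAt_id ζ).smul_const ((s : ℂ) • v)).const_add (e x)
  have hm : ∀ ζ ∈ ball (0 : ℂ) 1, G ζ ∈ e.target := by
    intro ζ hζ
    refine hb ?_
    rw [mem_ball_zero_iff] at hζ
    rw [mem_ball, dist_eq_norm, hG, add_sub_cancel_left, norm_smul, norm_smul, Complex.norm_real,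
      Real.norm_of_nonneg hs0.le]
    have h1 : s * ‖v‖ < r := by
      rw [hs, div_mul_eq_mul_div, div_lt_iff₀ (by positivity)]
      nlinarith
    have h2 : 0 ≤ s * ‖v‖ := by positivity
    nlinarith [norm_nonneg ζ]
  refine ⟨s⁻¹, inv_pos.2 hs0, (s : ℂ) • v, ⟨fun ζ => e.symm (G ζ),
    fun ζ hζ => holAt_symm a.1 (hm ζ hζ) (hd ζ).differentiableAt, ?_, ?_⟩, ?_⟩
  · simp only [hG, zero_smul, add_zero, a.left_inv]
  · refine ((hd 0).congr_of_eventuallyEq ?_).deriv
    filter_upwards [isOpen_ball.mem_nhds (mem_ball_self one_pos)] with ζ hζ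
    exact e.right_inv (hm ζ hζ)
  · rw [smul_smul, ← Complex.ofReal_mul, inv_mul_cancel₀ hs0.ne', Complex.ofReal_one, one_smul]

variable [T2Space X] [CompactSpace X]

/-- Royden's criterion -/
theorem royden_lower (hX : BrodyHyperbolic n X) (hh : S.IsHermitian h) :
    ∃ c : ℝ, 0 < c ∧ ∀ x v, c * S.form (h x) v ≤ S.royden x v ^ 2 := by
  have hH := herm_of hh
  obtain ⟨M, hM, hb⟩ := b2 _ hH hX
  refine ⟨M⁻¹, inv_pos.2 hM, fun x v => ?_⟩
  refine (Real.sqrt_le_left (royden_nonneg x v)).1 ?_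
  rw [royden_eq]
  refine le_csInf (exists_disc (BR.at_chartAt x) v) ?_
  rintro t ⟨ht, _, ⟨f, hf, hx, rfl⟩, rfl⟩
  refine (Real.sqrt_le_left ht.le).2 ?_
  have h1 := hb f hf
  rw [spd, hx, loc_self] at h1
  rw [form_eq, quad_smul', Complex.norm_real, Real.norm_of_nonneg ht.le, inv_mul_le_iff₀ hM]
  nlinarith [sq_nonneg t]

/-- the volume estimate on the open indicatrix, for Kähler metrics -/
theorem open_form (hX : BrodyHyperbolic n X) (hw : IsKahler w) (hR : RicGe w) (x : X)
    {u : Cm n → ℝ} (hu : ∀ v, S.royden x v < 1 → ContDiffAt ℝ 2 u v ∧ (cHess u v).PosDef ∧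
      Real.exp (u v) ≤ (cHess u v).det.re) :
    Real.exp (u 0) ≤ (ofK w x).det.re := by
  have a := BR.at_chartAt (n := n) x
  obtain ⟨M, hM, hb⟩ := b2 _ hw.toIsHermitian hX
  have key : ∀ t : ℝ, 0 < t → t < 1 →
      u 0 + n * Real.log (t ^ 2) ≤ Real.log (ofK w x).det.re := by
    intro t ht ht1
    have h1 := closed_form (u := fun v => u ((t : ℂ) • v) + n * Real.log (t ^ 2)) hw hR hb a ?_
    · simp only [smul_zero] at h1
      exact h1
    intro v hv
    obtain ⟨c1, c2, c3⟩ := hu _ ((royden_le hv ht).trans_lt ht1)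
    have s1 : ContDiffAt ℂ ω (fun y : Cm n => (t : ℂ) • y) v := contDiffAt_id.const_smul _
    have s2 : ContDiffAt ℝ 2 (fun y : Cm n => u ((t : ℂ) • y)) v :=
      ContDiffAt.comp v (g := u) c1 ((s1.restrict_scalars ℝ).of_le le_top)
    have j1 : jmat (fun y : Cm n => (t : ℂ) • y) v = (t : ℂ) • (1 : S.Mat n) := by
      ext p i
      have h2 : HasFDerivAt (fun y : Cm n => (t : ℂ) • y)
          ((t : ℂ) • ContinuousLinearMap.id ℂ (Cm n)) v := (hasFDerivAt_id v).const_smul (t : ℂ)
      rw [jmat_apply h2.differentiableAt, h2.fderiv]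
      simp [Matrix.one_apply, Pi.single_apply]
    have h2 : cHess (fun y => u ((t : ℂ) • y) + n * Real.log (t ^ 2)) v =
        ((t ^ 2 : ℝ) : ℂ) • cHess u ((t : ℂ) • v) := by
      rw [cHess_add s2 contDiffAt_const, N.cHess_const, add_zero,
        cHess_comp (f := u) (τ := fun y : Cm n => (t : ℂ) • y) c1 s1, j1]
      have h3 : ((t : ℂ) • (1 : S.Mat n)).map (starRingEnd ℂ) = (t : ℂ) • (1 : S.Mat n) := by
        ext p i
        simp [Matrix.one_apply]
        split_ifs <;> simp
      rw [h3, Matrix.transpose_smul, Matrix.transpose_one, Matrix.smul_mul, Matrix.mul_smul,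
        Matrix.one_mul, Matrix.mul_one, smul_smul]
      push_cast
      rw [sq]
    have ht2 : 0 < t ^ 2 := by positivity
    refine ⟨s2.add contDiffAt_const, ?_, ?_⟩
    · rw [h2]
      exact posDef_ofReal_smul c2 ht2
    · have h4 := (Real.exp_pos _).trans_le c3
      rw [h2, Matrix.det_smul, Fintype.card_fin, ← Complex.ofReal_pow, Complex.re_ofReal_mul,
        Real.log_mul (by positivity) h4.ne', Real.log_pow (t ^ 2)]
      have h5 := (Real.le_log_iff_exp_le h4).2 c3
      linarith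
  have hd : 0 < (ofK w x).det.re := hermitian_det_pos hw.toIsHermitian a
  rw [← Real.le_log_iff_exp_le hd]
  have h1 : Tendsto (fun t : ℝ => u 0 + n * Real.log (t ^ 2)) (𝓝[<] 1)
      (𝓝 (u 0 + n * Real.log (1 ^ 2))) := by
    have h2 : ContinuousAt (fun t : ℝ => u 0 + n * Real.log (t ^ 2)) 1 :=
      continuousAt_const.add (continuousAt_const.mul ((continuousAt_id.pow 2).log (by simp)))
    exact h2.tendsto.mono_left nhdsWithin_le_nhds
  rw [one_pow, Real.log_one, mul_zero, add_zero] at h1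
  refine le_of_tendsto h1 ?_
  filter_upwards [Ioo_mem_nhdsLT (zero_lt_one (α := ℝ))] with t ht using key t ht.1 ht.2

/-- the volume estimate for Hermitian metrics -/
theorem volume (hX : BrodyHyperbolic n X) (hw : IsKahler w) (hh : S.IsHermitian h)
    (hR : S.RicGe h) (x : X) {u : Cm n → ℝ}
    (hu : ∀ v, S.royden x v < 1 → ContDiffAt ℝ 2 u v ∧ (cHess u v).PosDef ∧
      Real.exp (u v) ≤ (cHess u v).det.re) :
    Real.exp (u 0) ≤ (h x).det.re := by
  obtain ⟨g, hg, he⟩ := N272.exists_ke hX hw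
  have h1 := N272.det_le hg.toIsHermitian (herm_of hh) he.le (le_of hR) (BR.at_chartAt x)
  rw [loc_self] at h1
  exact (open_form hX hg (N272.ricGe he.ge) x hu).trans h1

/-- the case of an ellipsoid -/
theorem ellipsoid (hX : BrodyHyperbolic n X) (hw : IsKahler w) (hh : S.IsHermitian h)
    (hR : S.RicGe h) (x : X) {Q : S.Mat n} (hQ : Q.PosDef)
    (hq : ∀ v, S.form Q v ≤ S.royden x v ^ 2) : (n + 1) ^ n * Q.det.re ≤ (h x).det.re := by
  rw [← exp_kep_zero hQ]
  refine volume hX hw hh hR x fun v hv => ?_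
  have h1 : (quad Q v).re < 1 := by
    rw [← form_eq]
    refine (hq v).trans_lt ?_
    nlinarith [royden_nonneg x v]
  obtain ⟨h2, h3, h4⟩ := kep_spec hQ h1
  exact ⟨h2, h3, h4.le⟩

/-- the lower bound of the canonical volume -/
theorem canonical_volume [Nonempty X] (hX : BrodyHyperbolic n X) (hh : S.IsKahler h)
    {q : X → S.Mat n} (hq : S.IsHermitian q) (hk : ∀ x v, S.form (q x) v ≤ S.royden x v ^ 2) :
    ∃ I J : ℝ, S.IsVolume (-S.ric h) I ∧ S.IsVolume (S.loc q) J ∧ 0 < J ∧ (n + 1) ^ n * J ≤ I := by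
  have hw := kahler_of hh
  have hQ := herm_of hq
  obtain ⟨g, hg, he⟩ := N272.exists_ke hX hw
  have c1 := S2B.isCanonical_log_det hw.toIsHermitian
  have c2 := S2B.isCanonical_log_det hg.toIsHermitian
  have d1 := (INT.isClosedForm_canonical c1).isDensity
  have d2 := (INT.isClosedForm_canonical c2).isDensity
  have d3 : INT.IsDensity fun e z => (S.loc q e z).det.re := INT.isDensity_det hQ.isForm hQ.smooth
  have h1 := INT.PP_eq c1 c2 (INT.IsKahler.isClosedForm hw) 0
  simp only [INT.PP, Complex.ofReal_zero, zero_smul, add_zero] at h1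
  refine ⟨INT.intX fun e z => (cHess (fun y => Real.log (S.loc h e y).det.re) z).det.re, _, ?_,
    d3.isIntegral, INT.intX_pos d3 fun e x a => hQ.det_re_pos a, ?_⟩
  · have h2 : -S.ric h = fun e z => cHess (fun y => Real.log (S.loc h e y).det.re) z := by
      funext e z
      exact neg_neg _
    rw [h2]
    exact d1.isIntegral
  · rw [h1, ← INT.intX_const_mul]
    refine INT.intX_mono (d3.const_mul _) d2 fun e x a => ?_
    have h2 := he e x a
    simp only [N272.Ric, Pi.neg_apply, neg_inj] at h2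
    have h3 := ellipsoid hX hw (kahler_ofK hg).1
      (fun e he' z hz => by
        rw [ricEq_ofK hg.toIsHermitian he e he' z hz, neg_add_cancel]
        exact Matrix.PosSemidef.zero) x (hq.1 x) (hk x)
    rw [h2, hg.change e _ x a (BR.at_chartAt x), loc_eq q a, det_congr_re, det_congr_re,
      mul_left_comm]
    exact mul_le_mul_of_nonneg_left h3 (sq_nonneg _)

end Vale.Agent.N272X
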