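import Mathlib.Geometry.Manifold.MFDeriv.Basic
import Mathlib.Analysis.Matrix.PosDef
import Mathlib.Analysis.SpecialFunctions.Log.Basic
import Mathlib.LinearAlgebra.Projectivization.Basic
import Mathlib.MeasureTheory.Integral.Bochner.Set
import Mathlib.MeasureTheory.Measure.Lebesgue.Complex

/-!
# N272X: the definitions of the statement

`X` is a complex manifold modelled on `ℂⁿ`. Mathlib's tangent space `T_x X` is `ℂⁿ`, so a Hermitian
form on `T_x X` is a matrix `h x`, and an element of `K_x^m` is a number, its value on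
`(e_1 ∧ ⋯ ∧ e_n)^m`. They are read in a chart through the differential of the inverse chart.
-/

open scoped Manifold ContDiff ComplexOrder Matrix

noncomputable section

namespace Vale.Agent.N272X.S

/-- `ℂⁿ` -/
abbrev Cn (n : ℕ) : Type := Fin n → ℂ

/-- complex `n × n` matrices -/
abbrev Mat (n : ℕ) : Type := Matrix (Fin n) (Fin n) ℂ

/-- the complex differential `df_x(v)` of a map between manifolds modelled on `E` and `F` -/
def diff (E F : Type) [NormedAddCommGroup E] [NormedSpace ℂ E] [NormedAddCommGroup F]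
    [NormedSpace ℂ F] {M N : Type} [TopologicalSpace M] [ChartedSpace E M] [TopologicalSpace N]
    [ChartedSpace F N] (f : M → N) (x : M) (v : E) : F := mfderiv 𝓘(ℂ, E) 𝓘(ℂ, F) f x v

variable {n : ℕ} {X : Type} [TopologicalSpace X] [ChartedSpace (Cn n) X]

/-- `∂f/∂z_j` -/
def dz (j : Fin n) (f : Cn n → ℂ) (z : Cn n) : ℂ :=
  (fderiv ℝ f z (Pi.single j 1) - Complex.I * fderiv ℝ f z (Pi.single j Complex.I)) / 2

/-- `∂f/∂z̄_j` -/
def dzb (j : Fin n) (f : Cn n → ℂ) (z : Cn n) : ℂ :=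
  (fderiv ℝ f z (Pi.single j 1) + Complex.I * fderiv ℝ f z (Pi.single j Complex.I)) / 2

/-- the Levi matrix `(∂²u/∂z_j∂z̄_k)`, the matrix of `i∂∂̄u` -/
def levi (u : Cn n → ℝ) (z : Cn n) : Mat n := Matrix.of fun j k => dz j (dzb k fun y => (u y : ℂ)) z

/-- `Q(v) = Σ Q_{ij} v_i v̄_j` -/
def form (Q : Mat n) (v : Cn n) : ℝ := (v ⬝ᵥ Q *ᵥ star v).re

/-- The coordinate frame of the chart `e`: the `i`-th column is `∂/∂z_i ∈ T_x X`, `x = e⁻¹(z)`. -/
def frame (e : OpenPartialHomeomorph X (Cn n)) (z : Cn n) : Mat n :=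
  Matrix.of fun p i => diff (Cn n) (Cn n) e.symm z (Pi.single i 1) p

/-- the coefficients `h(∂/∂z_i, ∂/∂z_j)` of a field of forms in the chart `e` -/
def loc (h : X → Mat n) (e : OpenPartialHomeomorph X (Cn n)) (z : Cn n) : Mat n :=
  (frame e z)ᵀ * h (e.symm z) * (frame e z).map (starRingEnd ℂ)

/-- the coefficients of the Ricci form `-i∂∂̄ log det h` in the chart `e` -/
def ric (h : X → Mat n) (e : OpenPartialHomeomorph X (Cn n)) (z : Cn n) : Mat n :=
  -levi (fun y => Real.log (loc h e y).det.re) z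

/-- smooth Hermitian metrics -/
def IsHermitian (h : X → Mat n) : Prop := (∀ x, (h x).PosDef) ∧
  ∀ e ∈ atlas (Cn n) X, ∀ z ∈ e.target, ∀ i j, ContDiffAt ℝ ∞ (fun y => loc h e y i j) z

/-- Kähler metrics: the fundamental form is closed -/
def IsKahler (h : X → Mat n) : Prop := IsHermitian h ∧ ∀ e ∈ atlas (Cn n) X, ∀ z ∈ e.target,
  ∀ i j k, dz k (fun y => loc h e y i j) z = dz i (fun y => loc h e y k j) z

/-- `Ric h ≥ -h` -/
def RicGe (h : X → Mat n) : Prop :=
  ∀ e ∈ atlas (Cn n) X, ∀ z ∈ e.target, (ric h e z + loc h e z).PosSemidef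

/-- `Ric h = -h` -/
def RicEq (h : X → Mat n) : Prop := ∀ e ∈ atlas (Cn n) X, ∀ z ∈ e.target, ric h e z = -loc h e z

variable (n X) in
/-- every entire curve is constant -/
def Brody : Prop := ∀ f : ℂ → X, MDifferentiable 𝓘(ℂ, ℂ) 𝓘(ℂ, Cn n) f → ∀ s t : ℂ, f s = f t

variable (n) in
/-- holomorphic sections of `K_X^m`: the value on the coordinate frames is holomorphic -/
def IsSection (m : ℕ) (s : X → ℂ) : Prop := ∀ e ∈ atlas (Cn n) X, ∀ z ∈ e.target,
  DifferentiableAt ℂ (fun y => s (e.symm y) * (frame e y).det ^ m) z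

variable (n X) in
/-- `K_X` is ample: for some `m ≥ 1`, sections `s_0, …, s_N` of `K_X^m` without common zero define
an injective map `[s_0 : ⋯ : s_N]` to `ℙ^N`, immersive in the affine charts. -/
def Ample : Prop := ∃ m : ℕ, 1 ≤ m ∧ ∃ (N : ℕ) (s : Fin (N + 1) → X → ℂ),
  (∀ j, IsSection n m (s j)) ∧ ∃ h0 : ∀ x, (fun j => s j x) ≠ 0,
    (Function.Injective fun x => Projectivization.mk ℂ (fun j => s j x) (h0 x)) ∧
    ∀ x i, s i x ≠ 0 → Function.Injective (diff (Cn n) (Cn (N + 1)) (fun y j => s j y / s i y) x)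

/-- the Kobayashi-Royden pseudometric `inf {t > 0 : v = t f'(0), f : 𝔻 → X, f(0) = x}` -/
def royden (x : X) (v : Cn n) : ℝ := sInf {t : ℝ | 0 < t ∧ ∃ f : ℂ → X,
  MDifferentiableOn 𝓘(ℂ, ℂ) 𝓘(ℂ, Cn n) f (Metric.ball 0 1) ∧ f 0 = x ∧
    v = (t : ℂ) • diff ℂ (Cn n) f 0 1}

/-- `I = ∫_X det A`, the integral of the top power of the `(1,1)`-form with coefficients `A`: the
value given by every finite partition of unity subordinate to charts. -/
def IsVolume (A : OpenPartialHomeomorph X (Cn n) → Cn n → Mat n) (I : ℝ) : Prop :=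
  ∀ (N : ℕ) (e : Fin N → OpenPartialHomeomorph X (Cn n)) (ρ : Fin N → X → ℝ),
    (∀ i, e i ∈ atlas (Cn n) X) → (∀ i, Continuous (ρ i)) → (∀ i, tsupport (ρ i) ⊆ (e i).source) →
    (∀ x, ∑ i, ρ i x = 1) → ∑ i, ∫ z in (e i).target, ρ i ((e i).symm z) * (A (e i) z).det.re = I

end Vale.Agent.N272X.S
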